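import Vale.Agent.P307.H227.FrQ
import Vale.Agent.P307.H227.FmLoc
import Vale.Agent.P307.Fm.Top

universe u

namespace Vale.Agent.Results.P307.FramedMember

open FirstOrder Cardinal Vale.Agent.P307 Vale.Agent.P307.H227 Vale.Agent.P307.Gw

/-- Q1 for abstract elementary classes with one member which has frames, or bases, over a small
strong substructure. For every infinite cardinal `l` there is a cardinal `μ ≥ l` such that for every
abstract elementary class `K` with `LS(K) ≤ l` which is categorical in one `κ ≥ μ`: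
if the member `M` of cardinality `κ` has frames over a strong substructure `P` with at most `l`
elements, or has bases over such a `P`, then `K` is categorical in every `κ' ≥ μ`;
and if some member of `K` of cardinality at least `μ` is geometric (its strong substructures form
the lattice of flats of a matroid any two bases of which are conjugate over their common part),
then `K` is categorical in every `κ' ≥ μ` and every member of cardinality at least `μ` is
geometric. -/
theorem result : ∀ l : Cardinal.{u}, ℵ₀ ≤ l → ∃ μ : Cardinal.{u}, l ≤ μ ∧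
    ∀ (L : Language.{u, u}) (K : AEC L), K.LS ≤ l →
      ∀ κ : Cardinal.{u}, μ ≤ κ → K.CategoricalIn κ →
        ((∃ (M : Type u) (_ : L.Structure M), K.mem M ∧ #M = κ ∧
            (IsLocFramed K l M ∨ IsLocFreeL K l M)) →
          ∀ κ' : Cardinal.{u}, μ ≤ κ' → K.CategoricalIn κ') ∧
        ((∃ (M : Type u) (_ : L.Structure M), K.mem M ∧ μ ≤ #M ∧ IsGeometric K M) →
          (∀ κ' : Cardinal.{u}, μ ≤ κ' → K.CategoricalIn κ') ∧
          ∀ (N : Type u) [L.Structure N], K.mem N → μ ≤ #N → IsGeometric K N) := by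
  intro l _
  obtain ⟨μ₁, h1, h2⟩ := q1_geometric l
  obtain ⟨μ₂, -, h4⟩ := q1_locFreeL l
  obtain ⟨μ₃, -, h6⟩ := q1_locFramed_of l (Fm.q1_framed l)
  refine ⟨max μ₁ (max μ₂ μ₃), h1.trans (le_max_left _ _), fun L K hK κ hκ hcat => ⟨?_, ?_⟩⟩
  · have hμ₂ : μ₂ ≤ max μ₁ (max μ₂ μ₃) := (le_max_left _ _).trans (le_max_right _ _)
    have hμ₃ : μ₃ ≤ max μ₁ (max μ₂ μ₃) := (le_max_right _ _).trans (le_max_right _ _)
    rintro ⟨M, i, hM, hMκ, h | h⟩ κ' hκ'
    · exact h6 L K hK κ (hμ₃.trans hκ) hcat ⟨M, i, hM, hMκ, h⟩ κ' (hμ₃.trans hκ')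
    · exact h4 L K hK κ (hμ₂.trans hκ) hcat ⟨M, i, hM, hMκ, h⟩ κ' (hμ₂.trans hκ')
  · rintro ⟨M, i, hM, hMμ, hg⟩
    have h5 := h2 L K hK ⟨M, i, hM, (le_max_left _ _).trans hMμ, hg⟩
      ⟨κ, (le_max_left _ _).trans hκ, hcat⟩
    exact ⟨fun κ' hκ' => (h5 κ' ((le_max_left _ _).trans hκ')).1, fun N _ hN hNμ =>
      (h5 #N ((le_max_left _ _).trans hNμ)).2 N hN rfl⟩

end Vale.Agent.Results.P307.FramedMember
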