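import Vale.Agent.P307.H227.Top
import Vale.Agent.P307.Tw.Flasque

universe u

namespace Vale.Agent.Results.P307.SymmetricFamilies

open FirstOrder Cardinal Vale.Agent.P307 Vale.Agent.P307.H227

/-- Q1 for abstract elementary classes with a symmetric family. For every infinite cardinal `l`
there is a cardinal `μ ≥ l` such that every abstract elementary class `K` with `LS(K) ≤ l` which has
a symmetric family of members above some cardinal, and which is categorical in one `κ ≥ μ`, is
categorical in every `κ' ≥ μ`; moreover, for every symmetric family of `K` above `χ`, and all sets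
`X` with `χ < |X|` and `μ ≤ |X|`, every member of `K` of the cardinality of `X` is isomorphic to
the member `F.obj X` of the family. -/
theorem result : ∀ l : Cardinal.{u}, ℵ₀ ≤ l → ∃ μ : Cardinal.{u}, l ≤ μ ∧
    ∀ (L : Language.{u, u}) (K : AEC L), K.LS ≤ l →
      (∃ χ : Cardinal.{u}, Nonempty (SymmetricFamily K χ)) →
      ∀ κ : Cardinal.{u}, μ ≤ κ → K.CategoricalIn κ →
        (∀ κ' : Cardinal.{u}, μ ≤ κ' → K.CategoricalIn κ') ∧
        ∀ (χ : Cardinal.{u}) (F : SymmetricFamily K χ) (X N : Type u) [L.Structure N],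
          χ < #X → μ ≤ #X → K.mem N → #N = #X → Nonempty (N ≃[L] F.obj X) := by
  intro l _
  obtain ⟨μ, h1, h2⟩ := q1_symmetric (fun χ Γ => Tw.flasque Γ) l
  refine ⟨μ, h1, fun L K hK hF κ hκ hcat => ?_⟩
  have h3 := h2 L K hK hF κ hκ hcat
  refine ⟨h3, fun χ F X N _ hχ hX hN hNX => ?_⟩
  exact SymmetricFamily.Std.of_cat hχ (h3 #X hX) N hN hNX X rfl

end Vale.Agent.Results.P307.SymmetricFamilies
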